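import Mathlib
import Vale.Agent.P123.Sharp

open scoped InnerProductSpace ComplexConjugate
open Polynomial

universe u

namespace Vale.Agent.Results.P123.Crouzeix

/-- The Crouzeix constant is exactly `2`. -/
theorem result :
    IsLeast {C : ℝ | ∀ (H : Type) [NormedAddCommGroup H] [InnerProductSpace ℂ H] [CompleteSpace H]
        [Nontrivial H] (A : H →L[ℂ] H) (P : Polynomial ℂ),
        ‖Polynomial.aeval A P‖ ≤
          C * sSup {r : ℝ | ∃ x : H, ‖x‖ = 1 ∧ r = ‖Polynomial.eval (inner ℂ x (A x)) P‖}} 2 ∧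
    ∀ (H : Type u) [NormedAddCommGroup H] [InnerProductSpace ℂ H] [CompleteSpace H]
        [Nontrivial H] (A : H →L[ℂ] H) (P : Polynomial ℂ),
        ‖Polynomial.aeval A P‖ ≤
          2 * sSup {r : ℝ | ∃ x : H, ‖x‖ = 1 ∧ r = ‖Polynomial.eval (inner ℂ x (A x)) P‖} := by
  refine ⟨⟨?_, fun C hC => ?_⟩, fun H _ _ _ _ A P => Vale.Agent.P123.norm_aeval_le_sSup A P⟩
  · intro H _ _ _ _ A P
    exact Vale.Agent.P123.norm_aeval_le_sSup A P
  · exact Vale.Agent.P123.two_le_of_bound C hC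

end Vale.Agent.Results.P123.Crouzeix
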